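import Vale.Agent.P221.H84.Mc
import Vale.Agent.P221.H727.Glue
import Vale.Agent.P221.H45.RC
import Vale.Agent.P221.H377.McW
import Vale.Agent.P221.E.H509.Iff2

/-!
# P221 (helper84): the theorem on missing classes, at the statement layer

* `isGenMoore_iso` : transport of generalised Moore spectra;
* `mc_main` : the main case of the theorem on missing residue classes.
-/

open CategoryTheory MonoidalCategory MonObj Limits Pretriangulated Filter

set_option linter.unusedSectionVars false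

noncomputable section

namespace Vale.Agent.P221.H84

open Vale.Agent.P251 Vale.Agent.P251.S Vale.Agent.P251.T Vale.Agent.P251.M Vale.Agent.P251.F
  Vale.Agent.P251.I EvenSpheres Vale.Agent.P257.H702 Vale.Agent.P257.H80 Vale.Agent.P251.Q
  Vale.Agent.P251.St Vale.Agent.P251.St.SHCat Vale.Agent.P257.St
  Vale.Agent.P221.H746 Vale.Agent.P093.N0 Vale.Agent.P257.H762
open Vale.Agent.P221.T (FinZp sV HK KK)
open Vale.Agent.P221.H377 (STw Deg Twr Lv twr_of_stw)
open Vale.Agent.P221.H395 (PComplete)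
open Vale.Agent.P221.St (IsGenMoore)
open Vale.Agent.P221.Loc (Good)
open Vale.Agent.P221.H626 (EnvX exists_envSt inducesMul_iso)
open Vale.Agent.P221.H45 (PiIn PiInHigh TowData)

variable {T : SHCat} {S : Susp T} {p n : ℕ}

/-- transport of generalised Moore spectra -/
theorem isGenMoore_iso {P P' : RingSp T} {φ : GHom S p P} {φ' : GHom S p P'} (e : P.obj ≅ P'.obj)
    [IsMonHom e.hom] (hφ : ∀ (m : ℕ) (x : VPoly p m), φ m x ≫ e.hom = φ' m x) {j : ℕ} {V : T.C}
    (h : IsGenMoore φ j V) : IsGenMoore φ' j V := by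
  induction h with
  | base hi hT => exact .base hi hT
  | step _ hi hw hf hT ih => exact .step ih hi hw (inducesMul_iso e hφ hf) hT

/-- totally finite objects are bounded above -/
theorem Bd.of_tf {Y : T.C} (h : St.TotallyFinite Y) : Bd Y := by
  obtain ⟨-, N, hN⟩ := h
  refine eventually_atTop.2 ⟨max (N + 1) 0, fun k hk y => hN k ?_ y⟩
  have h1 := (le_max_left _ _).trans hk
  have h2 := (le_max_right _ _).trans hk
  rw [abs_of_nonneg h2]
  omega

/-- **the theorem on missing residue classes** -/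
theorem mc_main (hp : p.Prime) {B X : T.C}
    (hB : StI.IsStandardForm S p n B) (hX : StI.IsFpType S p n X) {i₀ r N : ℤ} (hr : 1 ≤ r)
    (hnr : (n : ℤ) ≤ r + 1) (hrq : r < 2 * p - 3)
    (hmis : ∀ k, N ≤ k → ∀ s : ℤ, 1 ≤ s → s ≤ r → (2 * (p : ℤ) - 2) ∣ k - (i₀ - s) →
      ∀ y : (𝟙_ T.C)⟦k⟧ ⟶ X, y = 0) : St.Thick B X := by
  have hp' : Fact p.Prime := ⟨hp⟩
  have hp3 : 3 ≤ p := by
    have := hp.two_le
    omega
  obtain ⟨D₀, hD₀, hA₀, ⟨U⟩⟩ :=
    H924.exists_mu S.toSpaceFunctor (P251.M.lineIso S.toSpaceFunctor)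
  have hB' : St.IsForm S p n B := H924.isForm_of_isStandardForm hD₀ hA₀ U
    (Loc.isStandardForm_iff.1 (Loc.isStandardFormI_iff.1 hB))
  obtain ⟨R, o', φ', hR, ⟨E⟩⟩ := exists_envSt hB'
  have hX' := Loc.isFpTypeI_of hX
  obtain ⟨h1, h2, P, o, φ, V, hP, hV, hXV⟩ := hX'
  obtain ⟨e, _, _, he⟩ := P221.H509.exists_bp_iso hP hR
  have hV' : IsGenMoore φ' (n + 1) V := isGenMoore_iso e he hV
  obtain ⟨C, i, δ, hC⟩ := H746.exists_moore (𝒯 := T.C) (p : ℤ)
  have hGX : Good p C X := Loc.good_of_fpType hp hC ⟨h1, h2, P, o, φ, V, hP, hV, hXV⟩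
  have hGB : Good p C B := Loc.good_of_isForm hC hB'
  have hBV : St.TotallyFinite (ten B V) :=
    Vale.Agent.P221.E.H509.fpConv hp B (H174.isBPFinite_of_isForm hB') hGB.bb R o' φ' hR V hV'
  obtain ⟨W, he0, rfl, -, hWs⟩ := H727.exists_towData_glue' hR
    (stw_of_gen (E := fun _ _ => True) trivial (fun _ _ _ _ => trivial) hV')
  -- the tower
  obtain ⟨-, L, ε, hT, hL1, hL2, -⟩ := twr_of_stw E.hu E.hmul
    (hWs (fun j Z => 1 ≤ j → Z = W.V j) (fun h => absurd h (by omega)) (fun _ _ _ _ => rfl)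
      (n + 1) (by omega) le_rfl)
  have hL : ∀ j, 1 ≤ j → j ≤ n + 1 → (L j).V = W.V j := by
    intro j hj hj'
    rcases hj'.lt_or_eq with h | rfl
    · exact hL2 j h hj
    · exact hL1
  have := E.mon
  have hres := mc E hC hp3 (by omega) hr (by omega) hnr he0 hV' hT hL
    (H45.piIn_mod E.hD E.hA E.hb hC)
    ⟨hGB, Bd.of_tf hBV⟩ ⟨hGX, Bd.of_tf hXV⟩
    (i₀ := i₀) (eventually_atTop.2 ⟨N, hmis⟩)
  exact P221.H509.stThick_of_thick hres

/-- **the main case of the theorem on missing residue classes** -/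
theorem mcMain (hp : p.Prime) {B : T.C} (hB : StM.IsStandardForm S p n B) :
    H377.M.McMain S p n B := fun _ _ _ _ hX hr hnr hrq hmis =>
  mc_main hp (H460.isStandardForm_of_E (H377.M.standardE_of_M hB))
    (H377.M.fpI_of_M hX) hr hnr hrq
    fun k hk s h1 h2 h3 y => hmis k hk s h1 h2 h3 y

end Vale.Agent.P221.H84
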