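import Vale.Agent.P221.H543.FinZp
import Mathlib.RingTheory.Nakayama
import Mathlib.Data.Fintype.Sigma

/-!
# P221 (helper84): generators of finitely generated `ℤ_p`-modules, without choosing the structure

* `exists_gens` : finitely many elements in given degrees which generate modulo `p`;
* `top_of_mod` : a subgroup which is the image of a finitely generated `ℤ_p`-module and generates
  modulo `p` is everything.
-/

set_option linter.unusedSectionVars false

namespace Vale.Agent.P221.H84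

open Vale.Agent.P221.T

variable {p : ℕ} [hp : Fact p.Prime]

/-- `V + p G = G` -/
def ModP (p : ℕ) {G : Type} [AddCommGroup G] (V : AddSubgroup G) (y : G) : Prop :=
  ∃ v ∈ V, ∃ y', y = v + (p : ℤ) • y'

theorem ModP.of_mem {G : Type} [AddCommGroup G] {V : AddSubgroup G} {y : G} (h : y ∈ V) :
    ModP p V y := ⟨y, h, 0, by rw [smul_zero, add_zero]⟩

theorem ModP.add {G : Type} [AddCommGroup G] {V : AddSubgroup G} {y z : G} (h : ModP p V y)
    (h' : ModP p V z) : ModP p V (y + z) := by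
  obtain ⟨v, hv, y', rfl⟩ := h
  obtain ⟨w, hw, z', rfl⟩ := h'
  exact ⟨v + w, add_mem hv hw, y' + z', by rw [smul_add]; abel⟩

/-- a finitely generated module is generated modulo `p` by finitely many elements -/
theorem exists_finset {G : Type} [AddCommGroup G] (hG : FinZp p G) :
    ∃ s : Finset G, ∀ V : AddSubgroup G, (∀ x ∈ s, x ∈ V) → ∀ y, ModP p V y := by
  obtain ⟨hM, ⟨s, hs⟩⟩ := hG
  refine ⟨s, fun V hV y => ?_⟩
  have hy : y ∈ Submodule.span ℤ_[p] (s : Set G) := by rw [hs]; trivial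
  induction hy using Submodule.span_induction with
  | mem x hx => exact ModP.of_mem (hV x hx)
  | zero => exact ModP.of_mem (zero_mem _)
  | add x y _ _ hx hy => exact hx.add hy
  | smul a x _ hx =>
    obtain ⟨v, hv, y', rfl⟩ := hx
    have h1 : a - a.appr 1 ∈ Ideal.span {(p : ℤ_[p]) ^ 1} := PadicInt.appr_spec 1 a
    obtain ⟨d, hd⟩ := Ideal.mem_span_singleton.1 h1
    have h2 : a = (a.appr 1 : ℤ_[p]) + (p : ℤ_[p]) * d := by
      rw [pow_one] at hd
      rw [← hd]
      ring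
    refine ⟨(a.appr 1 : ℕ) • v, nsmul_mem hv _, d • v + a • y', ?_⟩
    have h3 : a • v = (a.appr 1 : ℕ) • v + (p : ℤ) • d • v := by
      conv_lhs => rw [h2, add_smul, mul_smul]
      congr 1
      · exact Nat.cast_smul_eq_nsmul _ _ _
      · rw [natCast_zsmul]
        exact Nat.cast_smul_eq_nsmul _ _ _
    have h4 : a • (p : ℤ) • y' = (p : ℤ) • a • y' := smul_comm _ _ _
    rw [smul_add, smul_add, h3, h4, add_assoc]

/-- **generators in finitely many degrees** -/
theorem exists_gens {A : ℤ → Type} [∀ k, AddCommGroup (A k)] (K : Finset ℤ)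
    (hfin : ∀ k ∈ K, FinZp p (A k)) : ∃ (r : ℕ) (e : Fin r → ℤ) (x : ∀ i, A (e i)),
      (∀ i, e i ∈ K) ∧ ∀ k ∈ K, ∀ V : AddSubgroup (A k),
        (∀ i (h : e i = k), (h ▸ x i) ∈ V) → ∀ y, ModP p V y := by
  classical
  choose s hs using fun k : K => exists_finset (hfin k.1 k.2)
  let ι := Σ k : K, {x // x ∈ s k}
  let φ : ι ≃ Fin (Fintype.card ι) := Fintype.equivFin ι
  refine ⟨Fintype.card ι, fun j => (φ.symm j).1.1, fun j => (φ.symm j).2.1,
    fun j => (φ.symm j).1.2, fun k hk V hV => ?_⟩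
  refine hs ⟨k, hk⟩ V fun x hx => ?_
  let j := φ ⟨⟨k, hk⟩, ⟨x, hx⟩⟩
  have hj : φ.symm j = ⟨⟨k, hk⟩, ⟨x, hx⟩⟩ := φ.symm_apply_apply _
  have h2 : ∀ (i : ι) (h : i.1.1 = k), i = ⟨⟨k, hk⟩, ⟨x, hx⟩⟩ → (h ▸ (i.2.1 : A i.1.1) : A k) = x := by
    rintro i h rfl
    rfl
  have hjk : (φ.symm j).1.1 = k := by rw [hj]
  have h3 := hV j hjk
  have h4 := h2 (φ.symm j) hjk hj
  exact h4 ▸ h3

/-- **the lemma of Nakayama** -/
theorem top_of_mod {G H : Type} [AddCommGroup G] [AddCommGroup H] (hG : FinZp p G)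
    (hH : FinZp p H) (f : H →+ G) (h : ∀ y, ModP p f.range y) (y : G) : ∃ x, f x = y := by
  obtain ⟨hM, hF⟩ := hG
  obtain ⟨hM', hF'⟩ := hH
  let L : H →ₗ[ℤ_[p]] G := { f with map_smul' := fun a x => H543.map_smul_padic f a x }
  have hle : (⊤ : Submodule ℤ_[p] G) ≤ LinearMap.range L ⊔
      (IsLocalRing.maximalIdeal ℤ_[p]) • (⊤ : Submodule ℤ_[p] G) := by
    intro y _
    obtain ⟨v, ⟨x, hx⟩, y', rfl⟩ := h y
    refine add_mem (Submodule.mem_sup_left ⟨x, hx⟩) (Submodule.mem_sup_right ?_)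
    have h1 : (p : ℤ) • y' = (p : ℤ_[p]) • y' := by
      rw [natCast_zsmul]
      exact (Nat.cast_smul_eq_nsmul _ _ _).symm
    rw [h1]
    refine Submodule.smul_mem_smul ?_ trivial
    rw [PadicInt.maximalIdeal_eq_span_p]
    exact Ideal.mem_span_singleton_self _
  have h2 := Submodule.le_of_le_smul_of_le_jacobson_bot hF.1
    (IsLocalRing.maximalIdeal_le_jacobson _) hle
  obtain ⟨x, hx⟩ := h2 (show y ∈ (⊤ : Submodule ℤ_[p] G) from trivial)
  exact ⟨x, hx⟩

end Vale.Agent.P221.H84
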