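import Vale.Agent.P221.H543.Sum

/-!
# P221 (helper84): homogeneous components of elements of `W`

* `W_hom` : the homogeneous components of elements of `W` are in `W`;
* `mem_W_succ_of` : `a ∈ W_{j+1}` is `w + v_j u` with homogeneous `w ∈ W_j` and `u`;
* `mapE_mem_W` : see `H543.mapE_W`.
-/

open MvPolynomial

set_option linter.unusedSectionVars false

namespace Vale.Agent.P221.H84

open Vale.Agent.P221.T Vale.Agent.P221.T.H746 Vale.Agent.P221.H460 Vale.Agent.P221.H377

variable {p : ℕ} [hp : Fact p.Prime] {n : ℕ} {ld : Lead p n} {S : Src p n} {O : OpAlg ld S}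
  {X : OpX O} {Y : Sys S}

/-- the degree `t` component of `opA γ u` -/
theorem opA_apply {m t t' : ℤ} (h : t' + m = t) (γ : S.E m) (u : AA Y) :
    (opA Y γ u) t = Y.act h (u t') γ := by
  classical
  refine ind Y (Q := fun u => (opA Y γ u) t = Y.act h (u t') γ) ?_ ?_ ?_ u
  · rw [map_zero, DirectSum.zero_apply, DirectSum.zero_apply, map_zero, AddMonoidHom.zero_apply]
  · intro k a
    rw [opA_of Y (rfl : k + m = k + m)]
    by_cases hk : t' = k
    · subst hk
      subst h
      rw [DirectSum.of_eq_same, DirectSum.of_eq_same]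
    · rw [DirectSum.of_eq_of_ne _ _ _ hk, DirectSum.of_eq_of_ne _ _ _ (by omega), map_zero,
        AddMonoidHom.zero_apply]
  · intro α β hα hβ
    rw [map_add, DirectSum.add_apply, DirectSum.add_apply, hα, hβ, map_add, AddMonoidHom.add_apply]

/-- the homogeneous components are in `W` -/
theorem W_hom (m : ℕ) {α : AA Y} (hα : α ∈ W (D0 Y) (xx X Y) (fun _ => 1) m) (t : ℤ) :
    ofA Y t (α t) ∈ W (D0 Y) (xx X Y) (fun _ => 1) m := by
  let V : AddSubgroup (AA Y) :=
    { carrier := {α | ∀ t, ofA Y t (α t) ∈ W (D0 Y) (xx X Y) (fun _ => 1) m}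
      add_mem' := fun {α β} h h' t => by
        rw [DirectSum.add_apply, map_add]
        exact add_mem (h t) (h' t)
      zero_mem' := fun t => by
        rw [DirectSum.zero_apply, map_zero]
        exact zero_mem _
      neg_mem' := fun {α} h t => by
        have h1 : (-α) t = -(α t) := by
          have h2 : (-α + α) t = 0 := by rw [neg_add_cancel, DirectSum.zero_apply]
          rw [DirectSum.add_apply] at h2
          exact eq_neg_of_add_eq_zero_left h2
        rw [h1, map_neg]
        exact neg_mem (h t) }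
  have h1 : W (D0 Y) (xx X Y) (fun _ => 1) m ≤ V := by
    refine W_le (fun d hd t => D_le_W m ((of_mem_D0 Y).2 (hd t))) fun b hb u t => ?_
    rw [pow_one, xx, opA_apply (sub_add_cancel t (sV p b)), ← opA_of Y (sub_add_cancel t (sV p b))]
    have h4 := range_le_W (D := D0 Y) (x := xx X Y) (E := fun _ => 1) hb
      (ofA Y _ (u (t - sV p b)))
    rw [pow_one] at h4
    exact h4
  exact h1 hα t

/-- **homogeneous decomposition** -/
theorem mem_W_succ_of {m : ℕ} {t t' : ℤ} (h : t' + sV p m = t) {a : Y.A t}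
    (ha : ofA Y t a ∈ W (D0 Y) (xx X Y) (fun _ => 1) (m + 1)) :
    ∃ (w : Y.A t) (u : Y.A t'), ofA Y t w ∈ W (D0 Y) (xx X Y) (fun _ => 1) m ∧
      a = w + Y.act h u (gm X m) := by
  classical
  obtain ⟨w, hw, u, hu⟩ := mem_W_succ.1 ha
  refine ⟨w t, u t', W_hom m hw t, ?_⟩
  have h1 : (ofA Y t a) t = a := DirectSum.of_eq_same _ _
  rw [pow_one] at hu
  rw [← h1, ← hu, DirectSum.add_apply, xx, opA_apply h]

end Vale.Agent.P221.H84
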