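import Vale.Agent.P221.H543.Main
import Vale.Agent.P221.H84.Hom
import Vale.Agent.P221.H84.Gens

/-!
# P221 (helper84): finite covers in one class

`X` with finitely generated homotopy groups; in large degrees in the class `D`:

* (Dec) : `[P⟦t⟧, X] = W_{n+1} = ker ev + ∑_{j ≤ n} [P, X] v_j`;
* (Wd) : `ker ev · v_j ⊆ W_j`;
* (CT) : every class extends over `B⟦k⟧`.

`exists_cover` : there is a finite sum of suspensions of `B` with degrees in `D`, which maps onto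
`π_k X` for all large `k` in `D`.
-/

open CategoryTheory MonoidalCategory MonObj Limits Pretriangulated Filter

set_option linter.unusedSectionVars false

universe u

noncomputable section

namespace Vale.Agent.P221.H84

open Vale.Agent.P251 Vale.Agent.P251.S Vale.Agent.P251.T Vale.Agent.P251.M
open Vale.Agent.P221.H395 (PComplete)
open Vale.Agent.P221.T (gc comp_gc gc_map gc_comp gc_surj gc_zero_left gc_add_left BPS PiM zr KK GG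
  HK dT SrcT Lead OpAlg SysMap Sys FormD decomp pComplete_coprod FinZp sV vK)
open Vale.Agent.P221.H460 (OpX)
open Vale.Agent.P221.H377 (AA ofA opA opA_of xx D0 of_mem_D0 W D_le_W gm T_gm)
open Vale.Agent.P221.T.H746 (RN)
open Vale.Agent.P221.H626 (Wd)

variable {𝒯 : Type u} [Category.{0} 𝒯] [Preadditive 𝒯] [HasZeroObject 𝒯]
    [HasShift 𝒯 ℤ] [∀ n : ℤ, (shiftFunctor 𝒯 n).Additive] [Pretriangulated 𝒯] [IsTriangulated 𝒯]
    [MonoidalCategory 𝒯] [SymmetricCategory 𝒯] [TensorTriangulated 𝒯] [MonoidalClosed 𝒯]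
    [HasCoproducts.{0} 𝒯] [HasProducts.{0} 𝒯] [StableCat 𝒯]

variable {p : ℕ} [hp : Fact p.Prime] {n : ℕ} {R : 𝒯} [MonObj R] [IsCommMonObj R]
  {P W₀ : 𝒯} {β : BPS p R P W₀} {ld : Lead p n} {Sc : SrcT p n P} {O : OpAlg ld Sc.src}

/-! ### the operations `v_j` -/

/-- the operations `v_j` are the multiplications -/
theorem gm_eq (hT : ∀ (m : ℤ) (g : P⟦m⟧ ⟶ P), O.T m g = β.T g) (OX : OpX O) (j : ℕ) :
    (show P⟦sV p j⟧ ⟶ P from gm OX j) = β.mult (sV p j) (vK p j) := by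
  refine Vale.Agent.P221.T.H598.T_inj β β.specA1 fun z => ?_
  have h1 : β.T (show P⟦sV p j⟧ ⟶ P from gm OX j) = O.T (sV p j) (gm OX j) := (hT _ _).symm
  have h2 : β.T (β.mult (sV p j) (vK p j)) = O.T (sV p j) (β.mult (sV p j) (vK p j)) :=
    (hT _ _).symm
  rw [h1, h2, T_gm]
  exact (H543.T_mult' hT OX (H377.HK_vK j) z).symm

/-- the values of `a v_0` are divisible by `p` -/
theorem ev_act_zero (hu : Sc.u = η[R] ≫ β.c)
    (hT : ∀ (m : ℤ) (g : P⟦m⟧ ⟶ P), O.T m g = β.T g) (OX : OpX O) {X : 𝒯} {k k' : ℤ}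
    (h : k + sV p 0 = k') (a : P⟦k⟧ ⟶ X) : ∃ y : (𝟙_ 𝒯)⟦k'⟧ ⟶ X,
      (Sc.sys X).ev k' ((Sc.sys X).act h a (gm OX 0)) = (p : ℤ) • y := by
  have h1 : (Sc.sys X).ev k' ((Sc.sys X).act h a (gm OX 0)) = gc h (β.cls (sV p 0) (vK p 0)) a := by
    change Sc.u⟦k'⟧' ≫ gc h (show P⟦sV p 0⟧ ⟶ P from gm OX 0) a = _
    rw [gm_eq hT OX 0, comp_gc, H543.u_mult hu]
  have h2 : (vK p 0 : KK p) = (p : KK p) * 1 := (_root_.mul_one _).symm
  have h3 : HK p (sV p 0) (1 : KK p) := by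
    have h4 : sV p 0 = 0 := by simp [sV]
    rw [h4]
    exact MvPolynomial.isWeightedHomogeneous_one _ _
  refine ⟨gc h (β.cls (sV p 0) 1) a, h1.trans ?_⟩
  rw [h2, H903.cls_p β h3]
  exact map_zsmul (AddMonoidHom.mk' (fun y : (𝟙_ 𝒯)⟦sV p 0⟧ ⟶ P => gc h y a)
    fun y y' => gc_add_left h y y' a) (p : ℤ) (β.cls (sV p 0) 1)

/-! ### the image of the cover -/

section cov

variable {B : 𝒯} (φ : FormD β n B) {X : 𝒯} {r : ℕ} {e : Fin r → ℤ} (b : ∀ i, B⟦e i⟧ ⟶ X)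

include φ in
/-- classes of the sum lift to maps from `P` -/
theorem exists_lift_P (hu : Sc.u = η[R] ≫ β.c) (k : ℤ)
    (z : (𝟙_ 𝒯)⟦k⟧ ⟶ ∐ fun i => B⟦e i⟧) :
    ∃ h : P⟦k⟧ ⟶ ∐ fun i => B⟦e i⟧, Sc.u⟦k⟧' ≫ h = z := by
  obtain ⟨w, hw, -⟩ := decomp e k z
  choose f hf hf' using fun i => H903.exists_B φ (w i)
  refine ⟨∑ i, gc (by omega : e i + (k - e i) = k) (β.mult (k - e i) (RN p n (f i)) ≫ φ.Q)
    (Sigma.ι (fun i => B⟦e i⟧) i), ?_⟩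
  rw [hw, Preadditive.comp_sum]
  refine Finset.sum_congr rfl fun i _ => ?_
  rw [comp_gc, ← Category.assoc, H543.u_mult hu, ← hf' i]

/-- the image of `π_k (∐ B⟦e i⟧)` -/
def Im (k : ℤ) : AddSubgroup ((𝟙_ 𝒯)⟦k⟧ ⟶ X) :=
  (Preadditive.rightComp ((𝟙_ 𝒯)⟦k⟧) (Sigma.desc b)).range

theorem mem_Im {k : ℤ} {y : (𝟙_ 𝒯)⟦k⟧ ⟶ X} : y ∈ Im b k ↔ ∃ z, z ≫ Sigma.desc b = y := Iff.rfl

/-- the values of the elements which factor through the sum -/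
theorem ev_act_desc {m k k' : ℤ} (h : k + m = k') (g : P⟦k⟧ ⟶ ∐ fun i => B⟦e i⟧)
    (c : Sc.src.E m) : (Sc.sys X).ev k' ((Sc.sys X).act h
      (show P⟦k⟧ ⟶ X from g ≫ Sigma.desc b) c) ∈ Im b k' := by
  refine ⟨Sc.u⟦k'⟧' ≫ gc h (show P⟦m⟧ ⟶ P from c) g, ?_⟩
  change (Sc.u⟦k'⟧' ≫ gc h (show P⟦m⟧ ⟶ P from c) g) ≫ Sigma.desc b =
    Sc.u⟦k'⟧' ≫ gc h (show P⟦m⟧ ⟶ P from c) (g ≫ Sigma.desc b)
  rw [gc_comp, Category.assoc]

variable {OX : OpX O} {D : ℤ → Prop} (hD : ∀ t (j : ℕ), D t → D (t - sV p j))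

include φ hD in
/-- **lowering the index** -/
theorem ev_mem (hu : Sc.u = η[R] ≫ β.c)
    (hT : ∀ (m : ℤ) (g : P⟦m⟧ ⟶ P), O.T m g = β.T g) {N t : ℤ}
    (hwd : ∀ k, N ≤ k → D k → ∀ δ : P⟦k⟧ ⟶ X, Sc.u⟦k⟧' ≫ δ = 0 → ∀ j ≤ n,
      xx OX (Sc.sys X) j (ofA (Sc.sys X) k δ) ∈ W (D0 (Sc.sys X)) (xx OX (Sc.sys X)) (fun _ => 1) j)
    (hI : ∀ k, N ≤ k → k < t → D k → ∀ y : (𝟙_ 𝒯)⟦k⟧ ⟶ X, y ∈ Im b k)
    (htN : ∀ j ≤ n, N ≤ t - sV p j) (ht : D t) : ∀ j ≤ n + 1, ∀ a : P⟦t⟧ ⟶ X,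
      ofA (Sc.sys X) t a ∈ W (D0 (Sc.sys X)) (xx OX (Sc.sys X)) (fun _ => 1) j →
        ModP p (Im b t) (Sc.u⟦t⟧' ≫ a) := by
  intro j
  induction j with
  | zero =>
    intro _ a ha
    have h1 : Sc.u⟦t⟧' ≫ a = 0 := (of_mem_D0 (Sc.sys X)).1 ha
    rw [h1]
    exact ModP.of_mem (zero_mem _)
  | succ j ih =>
    intro hj a ha
    obtain ⟨w, v, hw, rfl⟩ := mem_W_succ_of (sub_add_cancel t (sV p j)) ha
    have hadd : ∀ c c' : (Sc.sys X).A t, (Sc.u⟦t⟧' ≫ (show P⟦t⟧ ⟶ X from c + c')) =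
        Sc.u⟦t⟧' ≫ (show P⟦t⟧ ⟶ X from c) + Sc.u⟦t⟧' ≫ (show P⟦t⟧ ⟶ X from c') :=
      fun c c' => Preadditive.comp_add _ _ _ _ _ _
    rcases Nat.eq_zero_or_pos j with rfl | hj0
    · rw [hadd]
      obtain ⟨y, hy⟩ := ev_act_zero hu hT OX (sub_add_cancel t (sV p 0))
        (show P⟦t - sV p 0⟧ ⟶ X from v)
      refine (ih (by omega) w hw).add ⟨0, zero_mem _, y, ?_⟩
      rw [zero_add]
      exact hy
    · have hs : 0 < sV p j := by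
        have h1 : (1 : ℤ) < (p : ℤ) ^ j := by
          exact_mod_cast Nat.one_lt_pow (by omega) hp.out.one_lt
        unfold Vale.Agent.P221.T.sV
        omega
      have hk := htN j (by omega)
      have hDk := hD t j ht
      obtain ⟨z, hz⟩ := hI _ hk (by omega) hDk (Sc.u⟦t - sV p j⟧' ≫
        (show P⟦t - sV p j⟧ ⟶ X from v))
      change z ≫ Sigma.desc b = _ at hz
      obtain ⟨g, rfl⟩ := exists_lift_P φ hu _ z
      -- the difference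
      let v' : (Sc.sys X).A (t - sV p j) := show P⟦t - sV p j⟧ ⟶ X from g ≫ Sigma.desc b
      let δ : (Sc.sys X).A (t - sV p j) := v - v'
      have hδ : Sc.u⟦t - sV p j⟧' ≫ (show P⟦t - sV p j⟧ ⟶ X from δ) = 0 := by
        have h1 : Sc.u⟦t - sV p j⟧' ≫ (show P⟦t - sV p j⟧ ⟶ X from δ) =
          Sc.u⟦t - sV p j⟧' ≫ (show P⟦t - sV p j⟧ ⟶ X from v) -
          Sc.u⟦t - sV p j⟧' ≫ g ≫ Sigma.desc b := Preadditive.comp_sub _ _ _
        rw [h1, ← hz, Category.assoc, sub_self]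
      have h2 := hwd _ hk hDk δ hδ j (by omega)
      rw [xx, opA_of _ (sub_add_cancel t (sV p j))] at h2
      have h3 : w + (Sc.sys X).act (sub_add_cancel t (sV p j)) v (gm OX j) =
          (w + (Sc.sys X).act (sub_add_cancel t (sV p j)) δ (gm OX j)) +
            (Sc.sys X).act (sub_add_cancel t (sV p j)) v' (gm OX j) := by
        have h4 : v = δ + v' := (sub_add_cancel v v').symm
        conv_lhs => rw [h4, map_add, AddMonoidHom.add_apply, ← add_assoc]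
      rw [h3, hadd]
      refine (ih (by omega) _ ?_).add (ModP.of_mem ?_)
      · rw [map_add]
        exact add_mem hw h2
      · exact ev_act_desc b (sub_add_cancel t (sV p j)) g (gm OX j)

end cov

section main

variable {B : 𝒯} (φ : FormD β n B) {X : 𝒯} {OX : OpX O} {D : ℤ → Prop}
  (hD : ∀ t (j : ℕ), D t → D (t - sV p j))

/-- `|v_j| ≤ |v_0| + ⋯ + |v_n|` -/
theorem sV_le_Wd {j : ℕ} (hj : j ≤ n) : sV p j ≤ Wd (sV p) (n + 1) :=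
  Finset.single_le_sum (f := sV p) (fun b _ => Vale.Agent.P221.T.H746.sV_nonneg p b)
    (Finset.mem_range.2 (by omega))

include φ hD in
/-- **finite covers in one class** -/
theorem exists_cover (hu : Sc.u = η[R] ≫ β.c)
    (hT : ∀ (m : ℤ) (g : P⟦m⟧ ⟶ P), O.T m g = β.T g)
    (hX : ∀ k : ℤ, FinZp p ((𝟙_ 𝒯)⟦k⟧ ⟶ X)) {N : ℤ}
    (hdec : ∀ t, N + Wd (sV p) (n + 1) ≤ t → D t → ∀ a : P⟦t⟧ ⟶ X, ofA (Sc.sys X) t a ∈
      W (D0 (Sc.sys X)) (xx OX (Sc.sys X)) (fun _ => 1) (n + 1))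
    (hwd : ∀ k, N ≤ k → D k → ∀ δ : P⟦k⟧ ⟶ X, Sc.u⟦k⟧' ≫ δ = 0 → ∀ j ≤ n,
      xx OX (Sc.sys X) j (ofA (Sc.sys X) k δ) ∈ W (D0 (Sc.sys X)) (xx OX (Sc.sys X)) (fun _ => 1) j)
    (hct : ∀ k, N ≤ k → D k → ∀ x : (𝟙_ 𝒯)⟦k⟧ ⟶ X, ∃ b : B⟦k⟧ ⟶ X,
      Sc.u⟦k⟧' ≫ φ.Q⟦k⟧' ≫ b = x) :
    ∃ (r : ℕ) (e : Fin r → ℤ) (b : ∀ i, B⟦e i⟧ ⟶ X),
      (∀ i, N ≤ e i ∧ e i < N + Wd (sV p) (n + 1) ∧ D (e i)) ∧
      ∀ k, N ≤ k → D k → ∀ y : (𝟙_ 𝒯)⟦k⟧ ⟶ X, ∃ z, z ≫ Sigma.desc b = y := by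
  classical
  let K : Finset ℤ := (Finset.Ico N (N + Wd (sV p) (n + 1))).filter D
  have hK : ∀ {k}, k ∈ K ↔ (N ≤ k ∧ k < N + Wd (sV p) (n + 1)) ∧ D k := by
    intro k
    rw [Finset.mem_filter, Finset.mem_Ico]
  obtain ⟨r, e, x, he, hx⟩ := exists_gens (A := fun k => ((𝟙_ 𝒯)⟦k⟧ ⟶ X)) K fun k _ => hX k
  choose b hb using fun i => hct (e i) (hK.1 (he i)).1.1 (hK.1 (he i)).2 (x i)
  refine ⟨r, e, b, fun i => ⟨(hK.1 (he i)).1.1, (hK.1 (he i)).1.2, (hK.1 (he i)).2⟩, ?_⟩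
  -- the generators are in the image
  have hxb : ∀ i, x i ∈ Im b (e i) := by
    intro i
    refine ⟨(Sc.u⟦e i⟧' ≫ φ.Q⟦e i⟧') ≫ Sigma.ι (fun i => B⟦e i⟧) i, ?_⟩
    change ((Sc.u⟦e i⟧' ≫ φ.Q⟦e i⟧') ≫ Sigma.ι (fun i => B⟦e i⟧) i) ≫ Sigma.desc b = x i
    rw [Category.assoc, Sigma.ι_desc, Category.assoc, hb]
  have key : ∀ m : ℕ, ∀ k, N ≤ k → k < N + m → D k → ∀ y : (𝟙_ 𝒯)⟦k⟧ ⟶ X, y ∈ Im b k := by
    intro m
    induction m with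
    | zero =>
      intro k h1 h2
      omega
    | succ m ih =>
      intro k hkN hkm hDk
      have h1 : ∀ y : (𝟙_ 𝒯)⟦k⟧ ⟶ X, ModP p (Im b k) y := by
        rcases lt_or_ge k (N + Wd (sV p) (n + 1)) with hk | hk
        · refine hx k (hK.2 ⟨⟨hkN, hk⟩, hDk⟩) (Im b k) ?_
          rintro i rfl
          exact hxb i
        · intro y
          obtain ⟨f, hf⟩ := hct k hkN hDk y
          have h2 := ev_mem φ b hD hu hT (N := N) (t := k) hwd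
            (fun k' h1 h2 h3 => ih k' h1 (by push_cast at hkm; omega) h3)
            (fun j hj => by have := sV_le_Wd (p := p) hj; omega) hDk (n + 1) le_rfl
            (φ.Q⟦k⟧' ≫ f) (hdec k hk hDk _)
          rwa [hf] at h2
      have h2 := top_of_mod (hX k) (H543.finZp_sum φ.hB (H543.finZp_form φ) e k)
        (Preadditive.rightComp ((𝟙_ 𝒯)⟦k⟧) (Sigma.desc b)) h1
      exact h2
  intro k hkN hDk y
  exact key (k - N + 1).toNat k hkN (by omega) hDk y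

end main

end Vale.Agent.P221.H84
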