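import Vale.Agent.P221.H377.ExHT
import Vale.Agent.P221.H543.Sum

/-!
# P221 (helper84): generation in large degrees, from an object in one class

* `dec_of_sparse` : for a sparse object `X` which lives in one class `D`, with `π_* (X ⊗ V_j)` in `D`
  for `j ≤ m` in large degrees, `n ≤ m + g`, `g` the length of the gaps, and `π_* (X ⊗ V_{n+1})`
  bounded above: `[P⟦t⟧, X] = ker ev + ∑_{j ≤ n} [P, X] v_j` for large `t`; no finiteness is needed;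
* `dec_of_one` : the same in the class of `i₀` for `X` with a map `X₀ ⟶ X` which is onto on homotopy
  in the class of `i₀` in large degrees, `X₀` in one class.
-/

open CategoryTheory MonoidalCategory OnePoint Limits Pretriangulated MonObj Filter

set_option linter.unusedSectionVars false

noncomputable section

namespace Vale.Agent.P221.H84

open Vale.Agent.P251 Vale.Agent.P251.S Vale.Agent.P251.T Vale.Agent.P251.M Vale.Agent.P251.F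
  Vale.Agent.P251.I EvenSpheres Vale.Agent.P257.H702 Vale.Agent.P257.H80 Vale.Agent.P251.Q
  Vale.Agent.P251.St Vale.Agent.P251.St.SHCat Vale.Agent.P257.St Vale.Agent.P221.H746
  Vale.Agent.P093.N0 Vale.Agent.P257.H762
open Vale.Agent.P221.St
open Vale.Agent.P221.Loc (IsCov exists_cov)
open Vale.Agent.P221.T (BPS sV KK GG HK SrcT Src Sys OpAlg Lead FinZp)
open Vale.Agent.P221.H460 (OpX Ev)
open Vale.Agent.P221.H377 (Twr Lv Deg Van KerP pi_data evu ofA W D0 xx of_mem_D0 D_le_W)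
open Vale.Agent.P221.H626 (EnvX CS QSt SpPi ev_surj covCl sp_cov)

universe u

section gen

variable {𝒯 : Type u} [Category.{0} 𝒯] [Preadditive 𝒯] [HasZeroObject 𝒯]
    [HasShift 𝒯 ℤ] [∀ n : ℤ, (shiftFunctor 𝒯 n).Additive] [Pretriangulated 𝒯] [IsTriangulated 𝒯]
    [MonoidalCategory 𝒯] [SymmetricCategory 𝒯] [TensorTriangulated 𝒯] [MonoidalClosed 𝒯]
    [HasCoproducts.{0} 𝒯] [HasProducts.{0} 𝒯] [StableCat 𝒯] {p n : ℕ} [hp : Fact p.Prime]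
    {P : 𝒯} {Sc : SrcT p n P} {ld : Lead p n} {O : OpAlg ld Sc.src} {OX : OpX O}
    {e : ℕ → ℕ} {L : ℕ → Lv 𝒯} {N : ℕ}

/-- `Q ⊗ V_j` is bounded above if `Q` is -/
theorem bdd_stage (hT : Twr OX e L N) {Q : 𝒯}
    (hQ : ∀ᶠ t : ℤ in atTop, ∀ y : (𝟙_ 𝒯)⟦t⟧ ⟶ Q, y = 0) : ∀ j ≤ N,
      ∀ᶠ t : ℤ in atTop, ∀ z : (𝟙_ 𝒯)⟦t⟧ ⟶ Q ⊗ (L j).V, z = 0 := by
  have hD : Deg p 0 (fun _ => False) := ⟨fun _ _ => Iff.rfl, fun _ h => h.elim⟩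
  have key : ∀ j ≤ N, Van (𝟙_ 𝒯) (fun _ => False) j (L j) Q := by
    intro j
    induction j with
    | zero =>
      intro _
      exact hT.vanA_zero (hQ.mono fun t ht _ => ht)
    | succ j ih =>
      intro hj
      exact (ih (by omega)).stepA (hT.step j (by omega)) hD
  intro j hj
  exact (key j hj).mono fun t ht => ht fun _ _ => id

/-- `X' ⊗ V_j` and `X ⊗ V_j` for a cover `X'` of `X` -/
theorem inj_stage (hT : Twr OX e L N) {X' X Q : 𝒯} {f : X' ⟶ X} {g : X ⟶ Q}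
    {w : Q ⟶ X'⟦(1 : ℤ)⟧} (H : Triangle.mk f g w ∈ distTriang 𝒯)
    (hQ : ∀ᶠ t : ℤ in atTop, ∀ y : (𝟙_ 𝒯)⟦t⟧ ⟶ Q, y = 0) {j : ℕ} (hj : j ≤ N) :
    ∀ᶠ t : ℤ in atTop, (∀ y : (𝟙_ 𝒯)⟦t⟧ ⟶ X ⊗ (L j).V, y = 0) →
      ∀ y : (𝟙_ 𝒯)⟦t⟧ ⟶ X' ⊗ (L j).V, y = 0 := by
  have hTW := dist_whiskerRight (L j).V H
  filter_upwards [H377.ev_add (bdd_stage hT hQ j hj) 1] with t h1 h y
  refine Vale.Agent.P221.T.tri_inj hTW y (fun z => ⟨0, ?_⟩) (h _)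
  rw [zero_comp]
  exact (h1 z).symm

end gen

variable {T : SHCat} {S : Susp T} {p n : ℕ} [hp : Fact p.Prime] {R : RingSp T} {φ : GHom S p R}
  {B : T.C}

/-- **generation in large degrees**, for sparse objects, without finiteness -/
theorem dec_of_sparse (E : EnvX S p n φ B) {D : ℤ → Prop} {g m : ℕ} (hD : Deg p g D)
    (hg : 1 ≤ g) (hev : ∀ k, D k → (2 : ℤ) ∣ k) (hn : n ≤ m + g) {X : T.C} (hX : CS p D X)
    {e : ℕ → ℕ} {L : ℕ → Lv T.C} (hT : Twr E.OX e L (n + 1))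
    (hL : ∀ j ≤ m, j ≤ n + 1 → ∀ᶠ t : ℤ in atTop, ¬ D t →
      ∀ z : (𝟙_ T.C)⟦t⟧ ⟶ X ⊗ (L j).V, z = 0)
    (hb : ∀ᶠ t : ℤ in atTop, ∀ z : (𝟙_ T.C)⟦t⟧ ⟶ X ⊗ (L (n + 1)).V, z = 0) :
    ∀ᶠ t : ℤ in atTop, ∀ a : E.Pc⟦t⟧ ⟶ X, ofA (E.Sc.sys X) t a ∈
      W (D0 (E.Sc.sys X)) (xx E.OX (E.Sc.sys X)) (fun _ => 1) (n + 1) := by
  have := E.mon
  have hQ : QSt p D := fun k j => by
    rw [mul_comm]
    exact hD.per k j
  have hC := covCl E.β E.β.specA2 E.O E.hu E.hT E.OX E.hD E.hA E.hb hQ hev (𝒯 := T.C)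
  have hE := hC.ev hX
  have hs := ev_surj E.β E.hu E.hD E.hb (hX.ee hev)
  have hK := ((pi_data (L := L) hT hD hg hE hs hX.sp (m := m)
    (fun j hj hj' => Van.of_con (hL j hj hj')) (n + 1) le_rfl).2.1 (by omega))
  filter_upwards [hK, hb] with t h1 h2 a
  exact h1 a (h2 _)

/-- the class of `i₀` -/
theorem deg_one (hp2 : 2 ≤ p) (i₀ : ℤ) : Deg p (2 * p - 3) fun k => (2 * (p : ℤ) - 2) ∣ k - i₀ := by
  refine ⟨fun t a => ?_, fun t ht i h1 h2 hti => ?_⟩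
  · have h1 : t + a * (2 * p - 2) - i₀ = t - i₀ + (2 * p - 2) * a := by ring
    rw [h1]
    exact Int.dvd_add_left (dvd_mul_right _ _)
  · have h3 := dvd_sub hti ht
    have h4 : t + i - i₀ - (t - i₀) = i := by ring
    rw [h4] at h3
    have h5 := Int.le_of_dvd (by omega) h3
    omega

/-- **generation in large degrees**, from an object in one class -/
theorem dec_of_one (E : EnvX S p n φ B) {i₀ : ℤ} (hi₀ : (2 : ℤ) ∣ i₀)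
    (hn : (n : ℤ) ≤ 2 * p - 2) {X X₀ : T.C} (a : X₀ ⟶ X) (hX₀ : H395.PComplete p X₀)
    {e : ℕ → ℕ} {L : ℕ → Lv T.C} (hT : Twr E.OX e L (n + 1))
    (h0 : ∀ᶠ t : ℤ in atTop, ¬ (2 * (p : ℤ) - 2) ∣ t - i₀ → ∀ y : (𝟙_ T.C)⟦t⟧ ⟶ X₀, y = 0)
    (h1 : ∀ᶠ t : ℤ in atTop, ¬ (2 * (p : ℤ) - 2) ∣ t - i₀ →
      ∀ y : (𝟙_ T.C)⟦t⟧ ⟶ X₀ ⊗ (L 1).V, y = 0)
    (hz : ∀ᶠ t : ℤ in atTop, ∀ y : (𝟙_ T.C)⟦t⟧ ⟶ X₀ ⊗ (L (n + 1)).V, y = 0)
    (hon : ∀ᶠ t : ℤ in atTop, (2 * (p : ℤ) - 2) ∣ t - i₀ →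
      ∀ x : (𝟙_ T.C)⟦t⟧ ⟶ X, ∃ z : (𝟙_ T.C)⟦t⟧ ⟶ X₀, z ≫ a = x) :
    ∀ᶠ t : ℤ in atTop, (2 * (p : ℤ) - 2) ∣ t - i₀ → ∀ b : E.Pc⟦t⟧ ⟶ X, ofA (E.Sc.sys X) t b ∈
      W (D0 (E.Sc.sys X)) (xx E.OX (E.Sc.sys X)) (fun _ => 1) (n + 1) := by
  have hp2 := hp.out.two_le
  have hc0 : Conn (0 : ℤ) (𝟙_ T.C) := E.conn_unit
  have := E.mon
  obtain ⟨C, i, δ, hC⟩ := H746.exists_moore (𝒯 := T.C) (p : ℤ)
  obtain ⟨c, hc⟩ := eventually_atTop.1 h0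
  obtain ⟨Y, f, hf⟩ := exists_cov c X₀
  have hev : ∀ k, (2 * (p : ℤ) - 2) ∣ k - i₀ → (2 : ℤ) ∣ k := by
    intro k hk
    have h2 : (2 : ℤ) ∣ 2 * (p : ℤ) - 2 := ⟨(p : ℤ) - 1, by ring⟩
    have h3 := dvd_add (h2.trans hk) hi₀
    rwa [sub_add_cancel] at h3
  have hY : CS p (fun k => (2 * (p : ℤ) - 2) ∣ k - i₀) Y :=
    ⟨sp_cov hc0 hf hc, hf.pComplete hC hc0 hX₀, ⟨c, BigCell.conn' hc0 hf.cell⟩⟩
  obtain ⟨Q, g, w, hTr⟩ := distinguished_cocone_triangle f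
  have hQ : ∀ᶠ t : ℤ in atTop, ∀ y : (𝟙_ T.C)⟦t⟧ ⟶ Q, y = 0 :=
    eventually_atTop.2 ⟨c, fun t ht => hf.cof_zero hc0 hTr t ht⟩
  have hst := fun j (hj : j ≤ n + 1) => inj_stage hT hTr hQ hj
  have hdec := dec_of_sparse E (deg_one hp2 i₀) (m := 1) (by omega) hev (by omega) hY hT
    (fun j hj hj' => by
      rcases Nat.eq_zero_or_pos j with rfl | hj0
      · exact (H377.Twr.vanA_zero (D := fun k => (2 * (p : ℤ) - 2) ∣ k - i₀) hT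
          (Eventually.of_forall hY.sp)).con
      · obtain rfl : j = 1 := by omega
        filter_upwards [h1, hst 1 hj'] with t h2 h3 ht
        exact h3 (h2 ht)) (by
      filter_upwards [hz, hst (n + 1) le_rfl] with t h2 h3
      exact h3 h2)
  have hs := ev_surj E.β E.hu E.hD E.hb (hY.ee hev)
  filter_upwards [hdec, hon, eventually_ge_atTop c] with t h2 h3 h4 ht b
  obtain ⟨z, hz⟩ := h3 ht (E.Sc.u⟦t⟧' ≫ b)
  obtain ⟨z', hz'⟩ := (hf.bij t h4).2 z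
  change z' ≫ f = z at hz'
  obtain ⟨b', hb'⟩ := hs t z'
  change E.Pc⟦t⟧ ⟶ Y at b'
  change E.Sc.u⟦t⟧' ≫ b' = z' at hb'
  have h5 := H543.mapE_W (E.Sc.map0 (f ≫ a)) (h2 b')
  have h6 : H543.mapE (E.Sc.map0 (f ≫ a)) (ofA (E.Sc.sys Y) t b') =
      ofA (E.Sc.sys X) t (show (E.Sc.sys X).A t from b' ≫ f ≫ a) :=
    (H543.mapE_of (E.Sc.map0 (f ≫ a)) (add_zero t) (show (E.Sc.sys Y).A t from b')).trans
      (congrArg (ofA (E.Sc.sys X) t) (E.Sc.map0_f (f ≫ a) t b'))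
  rw [h6] at h5
  have h7 : ofA (E.Sc.sys X) t (show (E.Sc.sys X).A t from b - b' ≫ f ≫ a) ∈ D0 (E.Sc.sys X) := by
    rw [of_mem_D0]
    change E.Sc.u⟦t⟧' ≫ (b - b' ≫ f ≫ a) = 0
    rw [Preadditive.comp_sub, reassoc_of% hb', reassoc_of% hz', hz, sub_self]
  have h8 : (show (E.Sc.sys X).A t from b) = (show (E.Sc.sys X).A t from b - b' ≫ f ≫ a) +
      (show (E.Sc.sys X).A t from b' ≫ f ≫ a) := (sub_add_cancel b (b' ≫ f ≫ a)).symm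
  have h9 : ofA (E.Sc.sys X) t b = ofA (E.Sc.sys X) t (show (E.Sc.sys X).A t from
      b - b' ≫ f ≫ a) + ofA (E.Sc.sys X) t (show (E.Sc.sys X).A t from b' ≫ f ≫ a) :=
    (congrArg (ofA (E.Sc.sys X) t) h8).trans (map_add _ _ _)
  rw [h9]
  exact add_mem (D_le_W _ h7) h5

end Vale.Agent.P221.H84
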