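import Vale.Agent.P221.H84.One
import Vale.Agent.P221.H84.Cover
import Vale.Agent.P221.H626.WdE
import Vale.Agent.P221.H626.StC
import Vale.Agent.P221.H626.PhiB
import Vale.Agent.P221.H45.One
import Vale.Agent.P221.H45.LocA
import Vale.Agent.P221.H128.D1
import Vale.Agent.P221.H128.E7

/-!
# P221 (helper84): objects with missing classes, assembly

* `has_cover` : the finite cover in the class of `i₀` for objects of `FF` with `r` missing classes;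
* `mc_even`, `mc` : objects of `FF` with `r ≥ max (1, n - 1)` consecutive missing classes modulo
  `2 p - 2` are in `Thick B`.
-/

open CategoryTheory MonoidalCategory MonObj Limits Pretriangulated Filter

set_option linter.unusedSectionVars false

noncomputable section

namespace Vale.Agent.P221.H84

open Vale.Agent.P251 Vale.Agent.P251.S Vale.Agent.P251.T Vale.Agent.P251.M Vale.Agent.P251.F
  Vale.Agent.P251.I EvenSpheres Vale.Agent.P257.H702 Vale.Agent.P257.H80 Vale.Agent.P251.Q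
  Vale.Agent.P251.St Vale.Agent.P251.St.SHCat Vale.Agent.P257.St
  Vale.Agent.P221.H746 Vale.Agent.P093.N0 Vale.Agent.P257.H762
open Vale.Agent.P221.T (FinZp sV Thick HK KK dT)
open Vale.Agent.P221.H377 (STw Deg Twr Lv)
open Vale.Agent.P221.H395 (PComplete)
open Vale.Agent.P221.St (IsGenMoore)
open Vale.Agent.P221.Loc (Good IsCov exists_cov nonempty_homShift)
open Vale.Agent.P221.H626 (EnvX finZp_of_good)
open Vale.Agent.P221.H45 (PiIn PiInHigh TowData exists_X0 statementA)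

variable {T : SHCat} {S : Susp T} {p n : ℕ} {R : RingSp T} {φ : GHom S p R}

variable [hp : Fact p.Prime] {B : T.C}

/-- homogeneous elements in degrees not divisible by `2 p - 2` -/
theorem HK_dvd {k : ℤ} (hk : ¬ (2 * (p : ℤ) - 2) ∣ k) {f : KK p} (hf : HK p k f) : f = 0 := by
  ext E
  rw [MvPolynomial.coeff_zero]
  by_contra hne
  have h1 : Vale.Agent.P221.T.dT p E = k := hf hne
  exact hk (h1 ▸ H626.dvd_dT p E)

/-- `π_* B` is concentrated in degrees divisible by `2 p - 2` -/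
theorem pi_form (E : EnvX S p n φ B) (k : ℤ) (hk : ¬ (2 * (p : ℤ) - 2) ∣ k)
    (y : (𝟙_ T.C)⟦k⟧ ⟶ B) : y = 0 := by
  obtain ⟨f, hf, rfl⟩ := H903.exists_B E.F y
  rw [HK_dvd hk hf, H903.cls_zero, zero_comp]

variable {C : T.C} {i : 𝟙_ T.C ⟶ C} {δ : C ⟶ (𝟙_ T.C)⟦(1 : ℤ)⟧}

/-- **the finite cover** -/
theorem has_cover (E : EnvX S p n φ B)
    (hC : Triangle.mk ((p : ℤ) • 𝟙 (𝟙_ T.C)) i δ ∈ distTriang T.C) (hp3 : 3 ≤ p)
    (hn : (n : ℤ) < 2 * p - 2) {i₀ : ℤ} (hi₀ : (2 : ℤ) ∣ i₀) {r : ℤ} (hr : 1 ≤ r)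
    (hrq : r < 2 * p - 2) (hnr : (n : ℤ) ≤ r + 1) {W : TowData R.obj p (2 * (p : ℤ) - 2) n}
    (he : 0 < W.e) {ε : ℕ → ℕ} {L : ℕ → Lv T.C} (hT : Twr E.OX ε L (n + 1))
    (hW : ∀ j, 1 ≤ j → j ≤ n + 1 → (L j).V = W.V j)
    (hRC : PiIn (fun k => (2 * (p : ℤ) - 2) ∣ k) (R.obj ⊗ C))
    {X : T.C} (hX : FF p C (W.V (n + 1)) X) (hmis : Mis (2 * (p : ℤ) - 2) r i₀ X) :
    HasCover B (2 * (p : ℤ) - 2) i₀ X := by
  have := E.mon
  obtain ⟨T₀, hT₀⟩ := eventually_atTop.1 hmis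
  obtain ⟨T₁, hT₁⟩ := eventually_atTop.1 hX.bdd
  obtain ⟨X₀, a, hI⟩ := exists_X0 (X := X) statementA H626.statementB H626.statementC
    H128.statementD (H128.rData E.hD E.hb) W hp.out (by omega) hC hRC hr hrq hX.good.pc
    (T := T₀) (fun k s hk => hT₀ k hk s) ⟨T₁, fun k hk _ => hT₁ k hk⟩
  obtain ⟨⟨T₂, hT₂⟩, ⟨T₃, hT₃⟩⟩ := hI.one hC he hnr hn
  obtain ⟨T₄, -, hon⟩ := hI.mis
  obtain ⟨T₅, hT₅⟩ := hI.fin
  have h0 : ∀ᶠ t : ℤ in atTop, ¬ (2 * (p : ℤ) - 2) ∣ t - i₀ → ∀ y : (𝟙_ T.C)⟦t⟧ ⟶ X₀, y = 0 :=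
    eventually_atTop.2 ⟨T₂, hT₂⟩
  have h1 : ∀ᶠ t : ℤ in atTop, ¬ (2 * (p : ℤ) - 2) ∣ t - i₀ →
      ∀ y : (𝟙_ T.C)⟦t⟧ ⟶ X₀ ⊗ (L 1).V, y = 0 :=
    eventually_atTop.2 ⟨T₃, by rw [hW 1 le_rfl (by omega)]; exact hT₃⟩
  have hz : ∀ᶠ t : ℤ in atTop, ∀ y : (𝟙_ T.C)⟦t⟧ ⟶ X₀ ⊗ (L (n + 1)).V, y = 0 :=
    eventually_atTop.2 ⟨T₅, by
      rw [hW (n + 1) (by omega) le_rfl]
      exact fun k hk => hT₅ k hk id⟩
  have hbase : ∃ (g : X₀ ⟶ X₀ ⊗ (L 1).V) (δ : X₀ ⊗ (L 1).V ⟶ X₀⟦(1 : ℤ)⟧),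
      Triangle.mk (((p : ℤ) ^ W.e) • 𝟙 X₀) g δ ∈ distTriang T.C := by
    rw [hW 1 le_rfl (by omega)]
    exact W.base X₀
  obtain ⟨g, δ₁, H⟩ := hbase
  obtain ⟨c, hc⟩ := H128.cvr_of_one E hi₀ hn.le hI.pc hT he H h0 h1 hz
  have hdec := dec_of_one E hi₀ hn.le a hI.pc hT h0 h1 hz (eventually_atTop.2 ⟨T₄, hon⟩)
  obtain ⟨T₆, hT₆⟩ := eventually_atTop.1 hdec
  -- the bound
  let N : ℤ := max (max T₀ T₄) (max c T₆)
  have hN0 : T₀ ≤ N := (le_max_left _ _).trans (le_max_left _ _)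
  have hN4 : T₄ ≤ N := (le_max_right _ _).trans (le_max_left _ _)
  have hNc : c ≤ N := (le_max_left _ _).trans (le_max_right _ _)
  have hN6 : T₆ ≤ N := (le_max_right _ _).trans (le_max_right _ _)
  have hWd := H543.Wd_nonneg' (p := p) (n + 1)
  obtain ⟨s, e, b, he, hb⟩ := exists_cover (OX := E.OX) E.F
    (D := fun k => (2 * (p : ℤ) - 2) ∣ k - i₀) (N := N) (fun t j h => by
      obtain ⟨d, hd⟩ := H377.sV_dvd p j
      rw [hd, show t - d * (2 * p - 2) - i₀ = t - i₀ - (2 * p - 2) * d by ring]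
      exact dvd_sub h (dvd_mul_right _ _)) E.hu E.hT (finZp_of_good hC hX.good)
    (fun t ht hk => hT₆ t (by omega) hk)
    (fun k hk hk' δ hδ j _ => E.wd hX.good.pc (T₀ := T₀) (i₀ := i₀)
      (fun m hm hm' => hT₀ m hm 1 le_rfl hr hm') (hN0.trans hk) hk' δ hδ j)
    (fun k hk hk' x => by
      obtain ⟨z, rfl⟩ := hon k (hN4.trans hk) hk' x
      obtain ⟨f, hf⟩ := hc k (hNc.trans hk) z
      exact ⟨f ≫ a, by rw [← hf]; simp only [Category.assoc]⟩)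
  exact ⟨s, e, b, fun i => (he i).2.2, eventually_atTop.2 ⟨N, hb⟩⟩

/-- **missing classes**, `i₀` even -/
theorem mc_even (E : EnvX S p n φ B)
    (hC : Triangle.mk ((p : ℤ) • 𝟙 (𝟙_ T.C)) i δ ∈ distTriang T.C) (hp3 : 3 ≤ p)
    (hn : (n : ℤ) < 2 * p - 2) {i₀ : ℤ} (hi₀ : (2 : ℤ) ∣ i₀) {r : ℤ} (hr : 1 ≤ r)
    (hrq : r < 2 * p - 2) (hnr : (n : ℤ) ≤ r + 1) {W : TowData R.obj p (2 * (p : ℤ) - 2) n}
    (he : 0 < W.e) (hV : IsGenMoore φ (n + 1) (W.V (n + 1))) {ε : ℕ → ℕ} {L : ℕ → Lv T.C}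
    (hT : Twr E.OX ε L (n + 1)) (hW : ∀ j, 1 ≤ j → j ≤ n + 1 → (L j).V = W.V j)
    (hRC : PiIn (fun k => (2 * (p : ℤ) - 2) ∣ k) (R.obj ⊗ C))
    (hB : FF p C (W.V (n + 1)) B) {X : T.C} (hX : FF p C (W.V (n + 1)) X)
    (hmis : Mis (2 * (p : ℤ) - 2) r i₀ X) : Thick B X :=
  thick_of_mis hr hrq hB (pi_form E)
    (fun _ hY h1 => thick_of_one E hC hi₀ hn.le hV hY h1)
    (fun _ hY h1 => has_cover E hC hp3 hn hi₀ hr hrq hnr he hT hW hRC hY h1) hX hmis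

theorem Mis.shift {q r i₀ : ℤ} {X : T.C} (h : Mis q r i₀ X) (m : ℤ) :
    Mis q r (i₀ + m) (X⟦m⟧) := by
  obtain ⟨c, hc⟩ := eventually_atTop.1 h
  refine eventually_atTop.2 ⟨c + m, fun k hk s h1 h2 hks y => ?_⟩
  obtain ⟨e⟩ := nonempty_homShift X k m
  refine e.injective ((hc (k - m) (by omega) s h1 h2 ?_ _).trans (map_zero e).symm)
  rwa [show k - m - (i₀ - s) = k - (i₀ + m - s) by ring]

/-- **missing classes** -/
theorem mc (E : EnvX S p n φ B)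
    (hC : Triangle.mk ((p : ℤ) • 𝟙 (𝟙_ T.C)) i δ ∈ distTriang T.C) (hp3 : 3 ≤ p)
    (hn : (n : ℤ) < 2 * p - 2) {i₀ : ℤ} {r : ℤ} (hr : 1 ≤ r)
    (hrq : r < 2 * p - 2) (hnr : (n : ℤ) ≤ r + 1) {W : TowData R.obj p (2 * (p : ℤ) - 2) n}
    (he : 0 < W.e) (hV : IsGenMoore φ (n + 1) (W.V (n + 1))) {ε : ℕ → ℕ} {L : ℕ → Lv T.C}
    (hT : Twr E.OX ε L (n + 1)) (hW : ∀ j, 1 ≤ j → j ≤ n + 1 → (L j).V = W.V j)
    (hRC : PiIn (fun k => (2 * (p : ℤ) - 2) ∣ k) (R.obj ⊗ C))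
    (hB : FF p C (W.V (n + 1)) B) {X : T.C} (hX : FF p C (W.V (n + 1)) X)
    (hmis : Mis (2 * (p : ℤ) - 2) r i₀ X) : Thick B X := by
  rcases Int.even_or_odd i₀ with h | h
  · exact mc_even E hC hp3 hn h.two_dvd hr hrq hnr he hV hT hW hRC
      hB hX hmis
  · have h1 : (2 : ℤ) ∣ i₀ + 1 := by
      obtain ⟨j, rfl⟩ := h
      exact ⟨j + 1, by ring⟩
    have h2 := mc_even E hC hp3 hn h1 hr hrq hnr he hV hT hW hRC
      hB (hX.shift 1) (hmis.shift 1)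
    exact Vale.Agent.P221.T.Thick.of_iso ((shiftFunctorCompIsoId T.C (1 : ℤ) (-1) (by ring)).app X).symm
      (Vale.Agent.P221.T.Thick.shift (-1) h2)

end Vale.Agent.P221.H84
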