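import Vale.Agent.P221.Loc.Good
import Vale.Agent.P221.T.H520.T2
import Mathlib.Order.Filter.AtTopBot.Basic

/-!
# P221 (helper84): the sweep over the residue classes

* `FF p C V X` : `X` is good and `π_* (X ⊗ V)` is bounded above; `FF.of_thick`, `FF.fib`;
* `sweep` : let `π_* B` be concentrated in degrees divisible by `q`. If all objects of `FF` in one
  class are in `Thick B`, and all objects of `FF` with `r` missing classes below the one of `i₀` have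
  a finite cover by suspensions of `B` in the class of `i₀`, then all objects of `FF` with `r` missing
  classes are in `Thick B`.
-/

open CategoryTheory MonoidalCategory Limits Pretriangulated Filter
open Vale.Agent.P251.T Vale.Agent.P251.M

set_option linter.unusedSectionVars false

universe u

noncomputable section

namespace Vale.Agent.P221.H84

open Vale.Agent.P221.T (Thick tri_inj eq_zero_of_proj gc_surj gc_zero_left pi_shift_zero decomp)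
open Vale.Agent.P221.Loc (Good nonempty_homShift)

variable {𝒯 : Type u} [Category.{0} 𝒯] [Preadditive 𝒯] [HasZeroObject 𝒯]
    [HasShift 𝒯 ℤ] [∀ n : ℤ, (shiftFunctor 𝒯 n).Additive] [Pretriangulated 𝒯] [IsTriangulated 𝒯]
    [MonoidalCategory 𝒯] [SymmetricCategory 𝒯] [TensorTriangulated 𝒯] [MonoidalClosed 𝒯]
    [HasCoproducts.{0} 𝒯] [HasProducts.{0} 𝒯] [StableCat 𝒯]

/-- the homotopy groups vanish in large degrees -/
def Bd (X : 𝒯) : Prop := ∀ᶠ t : ℤ in atTop, ∀ y : (𝟙_ 𝒯)⟦t⟧ ⟶ X, y = 0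

theorem Bd.of_isZero {X : 𝒯} (h : IsZero X) : Bd X :=
  Eventually.of_forall fun _ _ => h.eq_of_tgt _ _

theorem Bd.shift {X : 𝒯} (h : Bd X) (m : ℤ) : Bd (X⟦m⟧) := by
  obtain ⟨c, hc⟩ := eventually_atTop.1 h
  refine eventually_atTop.2 ⟨c + m, fun t ht y => ?_⟩
  obtain ⟨e⟩ := nonempty_homShift X t m
  exact e.injective ((hc (t - m) (by omega) _).trans (map_zero e).symm)

theorem Bd.of_retract {X Y : 𝒯} (h : Bd X) (i : Y ⟶ X) (r : X ⟶ Y) (hir : i ≫ r = 𝟙 Y) : Bd Y := by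
  filter_upwards [h] with t ht y
  rw [← Category.comp_id y, ← hir, ← Category.assoc, ht (y ≫ i), zero_comp]

theorem Bd.ext₂ {X Y Z : 𝒯} {f : X ⟶ Y} {g : Y ⟶ Z} {w : Z ⟶ X⟦(1 : ℤ)⟧}
    (hT : Triangle.mk f g w ∈ distTriang 𝒯) (hX : Bd X) (hZ : Bd Z) : Bd Y := by
  filter_upwards [hX, hZ] with t h1 h2 y
  obtain ⟨x, hx⟩ := Triangle.coyoneda_exact₂ _ hT y (h2 _)
  rw [hx, h1 x]
  exact zero_comp

variable (p : ℕ) (C V : 𝒯)

/-- the class of objects -/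
structure FF (X : 𝒯) : Prop where
  good : Good p C X
  bdd : Bd (X ⊗ V)

variable {p C V}

theorem FF.ext₂ {X Y Z : 𝒯} {f : X ⟶ Y} {g : Y ⟶ Z} {w : Z ⟶ X⟦(1 : ℤ)⟧}
    (hT : Triangle.mk f g w ∈ distTriang 𝒯) (hX : FF p C V X) (hZ : FF p C V Z) :
    FF p C V Y :=
  ⟨Good.ext₂ hT hX.good hZ.good, Bd.ext₂ ((tensorRight V).map_distinguished _ hT) hX.bdd hZ.bdd⟩

theorem FF.shift {X : 𝒯} (hX : FF p C V X) (m : ℤ) : FF p C V (X⟦m⟧) :=
  ⟨hX.good.shift m, (hX.bdd.shift m).of_retract (((tensorRight V).commShiftIso m).app X).hom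
    (((tensorRight V).commShiftIso m).app X).inv
    (((tensorRight V).commShiftIso m).app X).hom_inv_id⟩

/-- the fibre -/
theorem FF.fib {X Y Z : 𝒯} {f : X ⟶ Y} {g : Y ⟶ Z} {w : Z ⟶ X⟦(1 : ℤ)⟧}
    (hT : Triangle.mk f g w ∈ distTriang 𝒯) (hY : FF p C V Y) (hZ : FF p C V Z) : FF p C V X :=
  FF.ext₂ (inv_rot_of_distTriang _ hT) (hZ.shift (-1)) hY

theorem FF.of_thick {B X : 𝒯} (hB : FF p C V B) (h : Thick B X) : FF p C V X := by
  induction h with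
  | base => exact hB
  | zero h0 => exact ⟨Good.of_isZero h0, Bd.of_isZero ((tensorRight V).map_isZero h0)⟩
  | shift k _ ih => exact ih.shift k
  | cof hT _ _ ih₁ ih₂ => exact FF.ext₂ (rot_of_distTriang _ hT) ih₂ (ih₁.shift 1)
  | retract i r hir _ ih =>
    exact ⟨ih.good.of_retract i r hir, ih.bdd.of_retract (i ▷ V) (r ▷ V)
      (by rw [← comp_whiskerRight, hir, id_whiskerRight])⟩

/-- finite sums of suspensions in one class -/
theorem pi_sum_zero {B : 𝒯} {q : ℤ} (hB : ∀ k, ¬ q ∣ k → ∀ y : (𝟙_ 𝒯)⟦k⟧ ⟶ B, y = 0) {i₀ : ℤ}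
    {r : ℕ} {e : Fin r → ℤ} (he : ∀ i, q ∣ e i - i₀) {k : ℤ} (hk : ¬ q ∣ k - i₀)
    (z : (𝟙_ 𝒯)⟦k⟧ ⟶ ∐ fun i => B⟦e i⟧) : z = 0 := by
  refine eq_zero_of_proj _ z fun i g => ?_
  obtain ⟨ε⟩ := nonempty_homShift B k (e i)
  refine ε.injective ((hB (k - e i) (fun h => hk ?_) _).trans (map_zero ε).symm)
  have h1 := dvd_add h (he i)
  rwa [show k - e i + (e i - i₀) = k - i₀ by ring] at h1

/-- `r` missing classes below the one of `i₀` -/
def Mis (q r i₀ : ℤ) (X : 𝒯) : Prop := ∀ᶠ k : ℤ in atTop, ∀ s : ℤ, 1 ≤ s → s ≤ r →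
  q ∣ k - (i₀ - s) → ∀ y : (𝟙_ 𝒯)⟦k⟧ ⟶ X, y = 0

/-- a finite cover in the class of `i₀` -/
def HasCover (B : 𝒯) (q i₀ : ℤ) (X : 𝒯) : Prop := ∃ (r : ℕ) (e : Fin r → ℤ) (b : ∀ i, B⟦e i⟧ ⟶ X),
  (∀ i, q ∣ e i - i₀) ∧ ∀ᶠ k : ℤ in atTop, q ∣ k - i₀ →
    ∀ y : (𝟙_ 𝒯)⟦k⟧ ⟶ X, ∃ z, z ≫ Sigma.desc b = y

/-- **the sweep** -/
theorem sweep {B : 𝒯} {q r i₀ : ℤ} (hr : 1 ≤ r) (hB : FF p C V B)
    (hBq : ∀ k, ¬ q ∣ k → ∀ y : (𝟙_ 𝒯)⟦k⟧ ⟶ B, y = 0)
    (hone : ∀ X : 𝒯, FF p C V X → (∀ᶠ k : ℤ in atTop, ¬ q ∣ k - i₀ →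
      ∀ y : (𝟙_ 𝒯)⟦k⟧ ⟶ X, y = 0) → Thick B X)
    (hcov : ∀ X : 𝒯, FF p C V X → Mis q r i₀ X → HasCover B q i₀ X) (m : ℕ) :
    r ≤ q - 1 - m → ∀ X : 𝒯, FF p C V X → Mis q (q - 1 - m) i₀ X → Thick B X := by
  induction m with
  | zero =>
    intro hm X hX hmis
    refine hone X hX (hmis.mono fun k hk hq => ?_)
    have hq0 : 0 < q := by push_cast at hm; omega
    have h1 := Int.emod_nonneg (i₀ - k) hq0.ne'
    have h2 := Int.emod_lt_of_pos (i₀ - k) hq0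
    have h3 : q ∣ (i₀ - k) - (i₀ - k) % q := Int.dvd_self_sub_emod
    refine hk ((i₀ - k) % q) ?_ (by push_cast; omega) ?_
    · rcases h1.eq_or_lt with h4 | h4
      · rw [← h4, sub_zero] at h3
        exact absurd ((dvd_sub_comm).1 h3) hq
      · omega
    · have h4 := (dvd_neg (a := q)).2 h3
      rwa [show -((i₀ - k) - (i₀ - k) % q) = k - (i₀ - (i₀ - k) % q) by ring] at h4
  | succ m ih =>
    intro hm X hX hmis
    push_cast at hm
    obtain ⟨s, e, b, he, hs⟩ := hcov X hX (hmis.mono fun k hk s h1 h2 => hk s h1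
      (by push_cast; omega))
    obtain ⟨X₁, i, δ, hTr⟩ := distinguished_cocone_triangle₁ (Sigma.desc b)
    have hP : Thick B (∐ fun i => B⟦e i⟧) := Thick.coprod _ fun i => Thick.shift _ Thick.base
    have hX₁ : FF p C V X₁ := FF.fib hTr (FF.of_thick hB hP) hX
    refine Thick.cof hTr (ih (by omega) X₁ hX₁ ?_) hP
    have hs' : ∀ᶠ k : ℤ in atTop, q ∣ k + 1 - i₀ →
        ∀ y : (𝟙_ 𝒯)⟦k + 1⟧ ⟶ X, ∃ z, z ≫ Sigma.desc b = y := by
      obtain ⟨c, hc⟩ := eventually_atTop.1 hs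
      exact eventually_atTop.2 ⟨c, fun k hk => hc (k + 1) (by omega)⟩
    have hm' : ∀ᶠ k : ℤ in atTop, ∀ s : ℤ, 1 ≤ s → s ≤ q - 1 - (m + 1) →
        q ∣ k + 1 - (i₀ - s) → ∀ y : (𝟙_ 𝒯)⟦k + 1⟧ ⟶ X, y = 0 := by
      obtain ⟨c, hc⟩ := eventually_atTop.1 hmis
      refine eventually_atTop.2 ⟨c, fun k hk s h1 h2 => hc (k + 1) (by omega) s h1 ?_⟩
      push_cast
      exact h2
    filter_upwards [hs', hm'] with k h1 h2 s hs1 hs2 hks y
    refine tri_inj hTr y (fun z => ?_) (pi_sum_zero hBq he (fun h => ?_) _)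
    · rcases hs1.eq_or_lt with h3 | h3
      · subst h3
        refine h1 ?_ z
        rwa [show k + 1 - i₀ = k - (i₀ - 1) by ring]
      · refine ⟨0, ?_⟩
        rw [zero_comp]
        refine (h2 (s - 1) (by omega) (by omega) ?_ z).symm
        rwa [show k + 1 - (i₀ - (s - 1)) = k - (i₀ - s) by ring]
    · have h3 := dvd_sub hks h
      rw [show k - (i₀ - s) - (k - i₀) = s by ring] at h3
      have h4 := Int.le_of_dvd (by omega) h3
      omega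

/-- **objects with `r` missing classes** -/
theorem thick_of_mis {B : 𝒯} {q r i₀ : ℤ} (hr : 1 ≤ r) (hrq : r < q) (hB : FF p C V B)
    (hBq : ∀ k, ¬ q ∣ k → ∀ y : (𝟙_ 𝒯)⟦k⟧ ⟶ B, y = 0)
    (hone : ∀ X : 𝒯, FF p C V X → (∀ᶠ k : ℤ in atTop, ¬ q ∣ k - i₀ →
      ∀ y : (𝟙_ 𝒯)⟦k⟧ ⟶ X, y = 0) → Thick B X)
    (hcov : ∀ X : 𝒯, FF p C V X → Mis q r i₀ X → HasCover B q i₀ X) {X : 𝒯} (hX : FF p C V X)
    (hmis : Mis q r i₀ X) : Thick B X := by
  obtain ⟨m, hm⟩ : ∃ m : ℕ, r = q - 1 - m := ⟨(q - 1 - r).toNat, by omega⟩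
  subst hm
  exact sweep hr hB hBq hone hcov m le_rfl X hX hmis

end Vale.Agent.P221.H84
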