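import Vale.Agent.P221.H626.Fin
import Vale.Agent.P221.H84.Step
import Vale.Agent.P221.H84.Dec

/-!
# P221 (helper84): objects in one class

* `stw_of_gen` : every generalised Moore spectrum has a tower;
* `thick_bd` : good objects which are bounded above are in `Thick B`;
* `thick_of_one` : objects of `FF` in one (even) class are in `Thick B`.
-/

open CategoryTheory MonoidalCategory MonObj Limits Pretriangulated Filter

set_option linter.unusedSectionVars false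

noncomputable section

namespace Vale.Agent.P221.H84

open Vale.Agent.P251 Vale.Agent.P251.S Vale.Agent.P251.T Vale.Agent.P251.M Vale.Agent.P251.F
  Vale.Agent.P251.I EvenSpheres Vale.Agent.P257.H702 Vale.Agent.P257.H80 Vale.Agent.P251.Q
  Vale.Agent.P251.St Vale.Agent.P251.St.SHCat Vale.Agent.P257.St
  Vale.Agent.P221.H746 Vale.Agent.P093.N0 Vale.Agent.P257.H762
open Vale.Agent.P221.T (FinZp sV Thick)
open Vale.Agent.P221.H377 (STw Deg)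
open Vale.Agent.P221.H395 (PComplete)
open Vale.Agent.P221.St (IsGenMoore)
open Vale.Agent.P221.Loc (Good IsCov exists_cov)
open Vale.Agent.P221.H626 (EnvX CS QSt SpPi ev_surj covCl sp_cov finZp_of_good finZp_of_surj
  uniq_hom cov_ten finite_ten_genMoore)

variable {T : SHCat} {S : Susp T} {p n : ℕ} {R : RingSp T} {φ : GHom S p R}

/-- towers -/
theorem stw_of_gen {E : ℕ → T.C → Prop} (h0 : E 0 T.one)
    (h1 : ∀ (j : ℕ) (V : T.C), 1 ≤ j → IsGenMoore φ j V → E j V) {j : ℕ} {V : T.C}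
    (h : IsGenMoore φ j V) : STw φ E j V := by
  have h2 : ∀ (j : ℕ) (V : T.C), IsGenMoore φ j V → 1 ≤ j := by
    intro j V h
    induction h <;> omega
  induction h with
  | base hi hT => exact .base h0 hi hT
  | step hV hi hw hf hT ih => exact .step ih (h1 _ _ (h2 _ _ hV) hV) hi hw hf hT

variable [hp : Fact p.Prime] {B : T.C}

/-- **bounded objects** -/
theorem thick_bd (E : EnvX S p n φ B) {C : T.C} {i : 𝟙_ T.C ⟶ C} {δ : C ⟶ (𝟙_ T.C)⟦(1 : ℤ)⟧}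
    (hC : Triangle.mk ((p : ℤ) • 𝟙 (𝟙_ T.C)) i δ ∈ distTriang T.C) {Q : T.C}
    (hQ : Good p C Q) (hb : Bd Q) : Thick B Q := by
  obtain ⟨c, hc⟩ := eventually_atTop.1 hb
  obtain ⟨m₀, hm₀⟩ := hQ.bb
  exact E.env.low (c - m₀).toNat Q m₀ c (by omega) hQ.pc hc hm₀ (finZp_of_good hC hQ)

/-- **objects in one class** -/
theorem thick_of_one (E : EnvX S p n φ B) {C : T.C} {i : 𝟙_ T.C ⟶ C}
    {δ : C ⟶ (𝟙_ T.C)⟦(1 : ℤ)⟧}
    (hC : Triangle.mk ((p : ℤ) • 𝟙 (𝟙_ T.C)) i δ ∈ distTriang T.C) {i₀ : ℤ} (hi₀ : (2 : ℤ) ∣ i₀)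
    (hn : (n : ℤ) ≤ 2 * p - 2) {V : T.C} (hV : IsGenMoore φ (n + 1) V) {X : T.C}
    (hX : FF p C V X) (h1 : ∀ᶠ k : ℤ in atTop, ¬ (2 * (p : ℤ) - 2) ∣ k - i₀ →
      ∀ y : (𝟙_ T.C)⟦k⟧ ⟶ X, y = 0) : Thick B X := by
  have hp2 := hp.out.two_le
  have hc0 : Conn (0 : ℤ) (𝟙_ T.C) := E.conn_unit
  obtain ⟨c, hc⟩ := eventually_atTop.1 h1
  obtain ⟨X₁, f, hf⟩ := exists_cov c X
  have hG₁ : Good p C X₁ := hf.good hC hc0 hX.good
  obtain ⟨Q, g, w, hTr⟩ := distinguished_cocone_triangle f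
  have hQ : Bd Q := eventually_atTop.2 ⟨c, fun t ht => hf.cof_zero hc0 hTr t ht⟩
  refine Thick.ext hTr ?_ (thick_bd E hC (Good.ext₃ hTr hG₁ hX.good) hQ)
  have hev : ∀ k, (2 * (p : ℤ) - 2) ∣ k - i₀ → (2 : ℤ) ∣ k := by
    intro k hk
    have h2 : (2 : ℤ) ∣ 2 * (p : ℤ) - 2 := ⟨(p : ℤ) - 1, by ring⟩
    have h3 := dvd_add (h2.trans hk) hi₀
    rwa [sub_add_cancel] at h3
  have hsp := sp_cov hc0 hf hc
  have hY : CS p (fun k => (2 * (p : ℤ) - 2) ∣ k - i₀) X₁ := ⟨hsp, hG₁.pc, hG₁.bb⟩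
  have hV' : STw φ (fun j W => j ≤ 0 → ∀ᶠ k : ℤ in atTop, ¬ (2 * (p : ℤ) - 2) ∣ k - i₀ →
      ∀ y : (𝟙_ T.C)⟦k⟧ ⟶ X₁ ⊗ W, y = 0) (n + 1) V :=
    stw_of_gen (fun _ => Eventually.of_forall fun k hk => H626.ten_one_zero.2 (hsp k hk))
      (fun j W h2 _ h3 => absurd h3 (by omega)) hV
  obtain ⟨N, hN⟩ := cov_ten hc0 hC hf hX.good hV
  have hb : ∀ᶠ t : ℤ in atTop, ∀ y : (𝟙_ T.C)⟦t⟧ ⟶ X₁ ⊗ V, y = 0 := by
    filter_upwards [hX.bdd, eventually_ge_atTop N] with t h2 h3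
    exact hN t h3 h2
  have hK := H377.exHigh_of_tower E (deg_one hp2 i₀) (by omega) hev (m := 0) (by omega) hY
    (finZp_of_good hC hG₁) (fun j W hW => finite_ten_genMoore hC hG₁ hW) hV' hb
  obtain ⟨m₀, hm₀⟩ := hG₁.bb
  exact E.thick_of_exHigh hG₁.pc hm₀ (finZp_of_good hC hG₁) (k₀ := 0)
    (fun k _ hk => hsp k fun h2 => hk (hev k h2)) hK

end Vale.Agent.P221.H84
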